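import Mathlib

open scoped ZeroAtInfty

noncomputable section

namespace Vale.Agent.P089

/-! ### Algebraic `K₀` of a unital ring (idempotent matrices) -/

/-- An idempotent square matrix over `R`. -/
structure Idem (R : Type) [Ring R] : Type where
  n : ℕ
  e : Matrix (Fin n) (Fin n) R
  idem : e * e = e

/-- The block diagonal matrix `a ⊕ b`. -/
def blockMat {R : Type} [Ring R] {m n : ℕ} (a : Matrix (Fin m) (Fin m) R)
    (b : Matrix (Fin n) (Fin n) R) : Matrix (Fin (m + n)) (Fin (m + n)) R :=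
  Matrix.reindex finSumFinEquiv finSumFinEquiv (Matrix.fromBlocks a 0 0 b)

/-- Block sum `p ⊕ q` of idempotent matrices. -/
def Idem.sum {R : Type} [Ring R] (p q : Idem R) : Idem R where
  n := p.n + q.n
  e := blockMat p.e q.e
  idem := by simp [blockMat, Matrix.fromBlocks_multiply, p.idem, q.idem]

/-- Algebraic (Murray-von Neumann) equivalence: `p = x y`, `q = y x`. -/
def Idem.Eqv {R : Type} [Ring R] (p q : Idem R) : Prop :=
  ∃ (x : Matrix (Fin p.n) (Fin q.n) R) (y : Matrix (Fin q.n) (Fin p.n) R),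
    x * y = p.e ∧ y * x = q.e

/-- The relations `[p] = [q]` for equivalent `p, q` and `[p ⊕ q] = [p] + [q]`. -/
def K0Rel (R : Type) [Ring R] : Set (FreeAbelianGroup (Idem R)) :=
  {z | ∃ p q : Idem R, p.Eqv q ∧ z = FreeAbelianGroup.of p - FreeAbelianGroup.of q} ∪
  {z | ∃ p q : Idem R,
    z = FreeAbelianGroup.of (p.sum q) - (FreeAbelianGroup.of p + FreeAbelianGroup.of q)}

/-- `K₀(R)`: the Grothendieck group of equivalence classes of idempotent matrices over `R`. -/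
abbrev K0 (R : Type) [Ring R] : Type :=
  FreeAbelianGroup (Idem R) ⧸ AddSubgroup.closure (K0Rel R)

/-- The formal difference `[p] - [q]` in `K₀(R)`. -/
def K0.diff {R : Type} [Ring R] (p q : Idem R) : K0 R :=
  QuotientAddGroup.mk (FreeAbelianGroup.of p - FreeAbelianGroup.of q)

/-! ### Bounded operators between Hilbert spaces -/

/-- Bounded operators `E → E'`. -/
abbrev Op (E E' : Type) [NormedAddCommGroup E] [InnerProductSpace ℂ E] [NormedAddCommGroup E']
    [InnerProductSpace ℂ E'] : Type :=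
  E →L[ℂ] E'

section General

variable {E E' E₁ E₂ : Type} [NormedAddCommGroup E] [InnerProductSpace ℂ E]
  [NormedAddCommGroup E'] [InnerProductSpace ℂ E'] [NormedAddCommGroup E₁] [InnerProductSpace ℂ E₁]
  [NormedAddCommGroup E₂] [InnerProductSpace ℂ E₂]

/-- The composite `a ∘ b`. -/
def opComp (a : Op E₁ E') (b : Op E E₁) : Op E E' := a.comp b

/-- The composite `a ∘ x ∘ b`. -/
def sandwich (a : Op E₂ E') (x : Op E₁ E₂) (b : Op E E₁) : Op E E' := a.comp (x.comp b)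

/-- The sum `a + b`. -/
def opAdd (a b : Op E E') : Op E E' := a + b

/-- The zero operator. -/
def opZero : Op E E' := 0

/-- The sum of a finitely supported family of operators. -/
def opSum {ι : Type} (a : ι → Op E E') : Op E E' := ∑ᶠ i, a i

/-- The norm closure of the linear span of a set of operators. -/
def closedSpan (S : Set (Op E E')) : Set (Op E E') :=
  closure (Submodule.span ℂ S : Set (Op E E'))

/-- The norm closure of the unital algebra generated by a set of operators. -/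
def closedAlg (S : Set (Op E E)) : Subalgebra ℂ (E →L[ℂ] E) :=
  (Algebra.adjoin ℂ S).topologicalClosure

/-- The algebra `closedAlg S` as a type. -/
def ClosedAlg (S : Set (Op E E)) : Type := closedAlg S

instance ClosedAlg.ring (S : Set (Op E E)) : Ring (ClosedAlg S) := (closedAlg S).toRing

/-- The operator underlying an element of `ClosedAlg S`. -/
def ClosedAlg.op {S : Set (Op E E)} (a : ClosedAlg S) : Op E E := Subtype.val a

/-- `W : range a → range b` and `W' : range b → range a` are mutually inverse, and they are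
perturbations of `T` and `T'` by elements of `𝒦` and `𝒦'`. -/
def InvertiblePerturbation (𝒦 : Set (Op E E')) (𝒦' : Set (Op E' E)) (a : Op E E) (b : Op E' E')
    (T : Op E E') (T' : Op E' E) : Prop :=
  ∃ (W : Op E E') (W' : Op E' E), W'.comp W = a ∧ W.comp W' = b ∧ W - T ∈ 𝒦 ∧ W' - T' ∈ 𝒦'

/-- The Hilbert space direct sum `E ⊕ E'`. -/
abbrev HSum (E E' : Type) : Type := WithLp 2 (E × E')

instance HSum.normed : NormedAddCommGroup (HSum E E') := WithLp.instProdNormedAddCommGroup 2 E E'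

instance HSum.hilbert : InnerProductSpace ℂ (HSum E E') := WithLp.instProdInnerProductSpace

/-- Inclusion of the first summand. -/
def inL : Op E (HSum E E') :=
  (WithLp.prodContinuousLinearEquiv 2 ℂ E E').symm.toContinuousLinearMap.comp
    (ContinuousLinearMap.inl ℂ E E')

/-- Inclusion of the second summand. -/
def inR : Op E' (HSum E E') :=
  (WithLp.prodContinuousLinearEquiv 2 ℂ E E').symm.toContinuousLinearMap.comp
    (ContinuousLinearMap.inr ℂ E E')

/-- Projection to the first summand. -/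
def prL : Op (HSum E E') E := WithLp.fstL 2 ℂ E E'

/-- Projection to the second summand. -/
def prR : Op (HSum E E') E' := WithLp.sndL 2 ℂ E E'

end General

/-- The Hilbert space `ℂ^m`. -/
abbrev Cn (m : ℕ) : Type := EuclideanSpace ℂ (Fin m)

instance Cn.normed (m : ℕ) : NormedAddCommGroup (Cn m) := PiLp.normedAddCommGroup 2 _

instance Cn.hilbert (m : ℕ) : InnerProductSpace ℂ (Cn m) := PiLp.innerProductSpace _

/-- Inclusion `ℂ → ℂ^m` of the `i`-th coordinate. -/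
def inC {m : ℕ} (i : Fin m) : Op ℂ (Cn m) :=
  ContinuousLinearMap.toSpanSingleton ℂ (EuclideanSpace.single i 1)

/-- Projection `ℂ^m → ℂ` to the `i`-th coordinate. -/
def prC {m : ℕ} (i : Fin m) : Op (Cn m) ℂ := EuclideanSpace.proj i

/-! ### Operators on `ℓ²(Γ, K)` and the reduced group `C*`-algebra -/

/-- The Hilbert space `ℓ²(Γ, K)`. -/
abbrev L2 (Γ K : Type) [NormedAddCommGroup K] : Type := lp (fun _ : Γ => K) 2

instance L2.normed (Γ K : Type) [NormedAddCommGroup K] : NormedAddCommGroup (L2 Γ K) :=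
  lp.normedAddCommGroup

instance L2.hilbert (Γ K : Type) [NormedAddCommGroup K] [InnerProductSpace ℂ K] :
    InnerProductSpace ℂ (L2 Γ K) :=
  lp.instInnerProductSpace

section Ops

variable {Γ : Type} [Group Γ] {K K' K₁ K₂ : Type} [NormedAddCommGroup K] [InnerProductSpace ℂ K]
  [NormedAddCommGroup K'] [InnerProductSpace ℂ K'] [NormedAddCommGroup K₁] [InnerProductSpace ℂ K₁]
  [NormedAddCommGroup K₂] [InnerProductSpace ℂ K₂]

/-- Left translate `g ↦ ξ (s⁻¹ g)` of a square summable function. -/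
def shiftVec (s : Γ) (ξ : L2 Γ K) : L2 Γ K :=
  ⟨fun g => ξ (s⁻¹ * g), memℓp_gen
    ((Equiv.mulLeft s⁻¹).summable_iff.2 ((lp.memℓp ξ).summable (by norm_num)))⟩

omit [InnerProductSpace ℂ K] in
theorem norm_shiftVec (s : Γ) (ξ : L2 Γ K) : ‖shiftVec s ξ‖ ≤ 1 * ‖ξ‖ := by
  rw [one_mul, lp.norm_eq_tsum_rpow (by norm_num), lp.norm_eq_tsum_rpow (by norm_num)]
  exact le_of_eq (congrArg (· ^ _) ((Equiv.mulLeft s⁻¹).tsum_eq fun g => ‖ξ g‖ ^ _))

/-- The left translation operator `λ_s ⊗ 1` on `ℓ²(Γ, K)`. -/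
def shift (s : Γ) : Op (L2 Γ K) (L2 Γ K) :=
  LinearMap.mkContinuous
    { toFun := shiftVec s, map_add' := fun _ _ => rfl, map_smul' := fun _ _ => rfl } 1
    (norm_shiftVec s)

/-- The operator `1 ⊗ T : ℓ²(Γ, K) → ℓ²(Γ, K')`, `ξ ↦ (g ↦ T (ξ g))`. -/
def ampl (Γ : Type) (T : Op K K') : Op (L2 Γ K) (L2 Γ K') :=
  lp.mapCLM 2 (fun _ : Γ => T) (norm_nonneg T) (fun _ => le_rfl)

/-- The operator `λ_s ⊗ T : ℓ²(Γ, K) → ℓ²(Γ, K')`, `ξ ↦ (g ↦ T (ξ (s⁻¹ g)))`. -/
def lamT (s : Γ) (T : Op K K') : Op (L2 Γ K) (L2 Γ K') :=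
  opComp (ampl Γ T) (shift s)

/-- The left regular representation `λ(Γ)` on `ℓ²(Γ)`. -/
def leftReg (Γ : Type) [Group Γ] : Set (Op (L2 Γ ℂ) (L2 Γ ℂ)) := Set.range fun s : Γ => shift s

/-- The reduced group `C*`-algebra `C*_r(Γ)`: the norm closure of `ℂ[Γ]` acting on `ℓ²(Γ)` by the
left regular representation. -/
def CStarRed (Γ : Type) [Group Γ] : Type := ClosedAlg (leftReg Γ)

instance CStarRed.ring (Γ : Type) [Group Γ] : Ring (CStarRed Γ) := ClosedAlg.ring (leftReg Γ)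

/-- The operator on `ℓ²(Γ)` underlying an element of `C*_r(Γ)`. -/
def CStarRed.op (a : CStarRed Γ) : Op (L2 Γ ℂ) (L2 Γ ℂ) := ClosedAlg.op a

open Classical in
/-- The canonical trace `τ(a) = ⟨δ₁, a δ₁⟩ = (a δ₁)(1)` on `C*_r(Γ)`. -/
def CStarRed.trace (a : CStarRed Γ) : ℂ := a.op (lp.single 2 1 1) 1

/-- `𝒦(K, K') ⊗ C*_r(Γ)`: the compact operators between the Hilbert `C*_r(Γ)`-modules
`K ⊗ C*_r(Γ)` and `K' ⊗ C*_r(Γ)`, represented on `ℓ²(Γ, K)` and `ℓ²(Γ, K')`. -/
def cptOps (Γ : Type) [Group Γ] (K K' : Type) [NormedAddCommGroup K] [InnerProductSpace ℂ K]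
    [NormedAddCommGroup K'] [InnerProductSpace ℂ K'] : Set (Op (L2 Γ K) (L2 Γ K')) :=
  closedSpan {x | ∃ (s : Γ) (T : Op K K'), IsCompactOperator T ∧ x = lamT s T}

/-- The block diagonal operator `a ⊕ b : ℓ²(Γ, K ⊕ K₁) → ℓ²(Γ, K' ⊕ K₂)`. -/
def dsum (a : Op (L2 Γ K) (L2 Γ K')) (b : Op (L2 Γ K₁) (L2 Γ K₂)) :
    Op (L2 Γ (HSum K K₁)) (L2 Γ (HSum K' K₂)) :=
  opAdd (sandwich (ampl Γ inL) a (ampl Γ prL)) (sandwich (ampl Γ inR) b (ampl Γ prR))

/-- A matrix over `C*_r(Γ)` as an operator on `ℓ²(Γ, ℂ^m) = ℓ²(Γ)^m`. -/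
def matOp {m : ℕ} (q : Matrix (Fin m) (Fin m) (CStarRed Γ)) : Op (L2 Γ (Cn m)) (L2 Γ (Cn m)) :=
  opSum fun ij : Fin m × Fin m =>
    sandwich (ampl Γ (inC ij.1)) (q ij.1 ij.2).op (ampl Γ (prC ij.2))

/-- `T ⊕ 0 : range (P₀ ⊕ Q₀) → range (P₁ ⊕ Q₁)` is a compact perturbation of an isomorphism,
whose inverse is a compact perturbation of `T' ⊕ 0`. -/
def StablyInvertible (P₀ P₁ T T' : Op (L2 Γ K) (L2 Γ K)) (Q₀ : Op (L2 Γ K₁) (L2 Γ K₁))
    (Q₁ : Op (L2 Γ K₂) (L2 Γ K₂)) : Prop :=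
  InvertiblePerturbation (cptOps Γ (HSum K K₁) (HSum K K₂)) (cptOps Γ (HSum K K₂) (HSum K K₁))
    (dsum P₀ Q₀) (dsum P₁ Q₁) (dsum T opZero) (dsum T' opZero)

/-- `x ∈ K₀(A)`, `A = C*_r(Γ)`, is the index of the Fredholm operator
`T = P₁ (1 ⊗ F) P₀ : P₀ E → P₁ E` on `E = K ⊗ A` (with parametrix `P₀ (1 ⊗ F) P₁`):
`x = [p] - [q]` where `T ⊕ 0 : P₀ E ⊕ q A^m → P₁ E ⊕ p A^n` is a compact perturbation of an
isomorphism. -/
def IsIndex (P₀ P₁ : Op (L2 Γ K) (L2 Γ K)) (F : Op K K) (x : K0 (CStarRed Γ)) : Prop :=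
  ∃ p q : Idem (CStarRed Γ), x = K0.diff p q ∧
    StablyInvertible P₀ P₁ (sandwich P₁ (ampl Γ F) P₀) (sandwich P₀ (ampl Γ F) P₁)
      (matOp q.e) (matOp p.e)

/-- The element `∑_s λ_s ⊗ a_s` (a finite sum) acting on `ℓ²(Γ, K)`. -/
def descend (a : Γ → Op K K) : Op (L2 Γ K) (L2 Γ K) := opSum fun s => lamT s (a s)

end Ops

/-! ### Equivariant Kasparov cycles, descent and the cutoff projection -/

section Cycles

variable {Γ X : Type} [Group Γ] [TopologicalSpace X] [MulAction Γ X] [ContinuousConstSMul Γ X]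

/-- The translate `x ↦ f (g⁻¹ x)` of `f ∈ C₀(X)`. -/
def act (g : Γ) (f : C₀(X, ℂ)) : C₀(X, ℂ) := f.comp (Homeomorph.smul g⁻¹).toCocompactMap

/-- `c` is the square root of a cutoff function: compactly supported, nonnegative, and
`∑_g c (g⁻¹ x)² = 1`. -/
structure IsCutoff (Γ : Type) {X : Type} [Group Γ] [TopologicalSpace X] [MulAction Γ X]
    (c : C₀(X, ℂ)) : Prop where
  supp : HasCompactSupport c
  nonneg : ∀ x, (c x).im = 0 ∧ 0 ≤ (c x).re
  sum_sq : ∀ x, ∑ᶠ g : Γ, c (g⁻¹ • x) ^ 2 = 1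

/-- The conditions on an even `Γ`-equivariant Kasparov `(C₀(X), ℂ)`-cycle `(π, U, γ, F)` in the
algebra `A` of bounded operators, `𝒦 ⊆ A` being the compact operators. -/
structure IsKasparov {A : Type} [Ring A] [StarRing A] [Algebra ℂ A] (𝒦 : Set A)
    (π : C₀(X, ℂ) →⋆ₙₐ[ℂ] A) (U : Γ →* A) (γ F : A) : Prop where
  unitary : ∀ g, star (U g) = U g⁻¹
  covariant : ∀ g f, U g * π f = π (act g f) * U g
  grading_sa : star γ = γ
  grading_sq : γ * γ = 1
  even_π : ∀ f, γ * π f = π f * γ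
  even_U : ∀ g, γ * U g = U g * γ
  odd_F : γ * F = -(F * γ)
  sa_F : ∀ f, π f * (F - star F) ∈ 𝒦
  sq_F : ∀ f, π f * (F * F - 1) ∈ 𝒦
  comm_F : ∀ f, π f * F - F * π f ∈ 𝒦
  inv_F : ∀ g f, π f * (U g * F * U g⁻¹ - F) ∈ 𝒦

/-- The coefficient at `s` of the cutoff projection, cut down by `(1 + γ) / 2`:
`π (c · (s c)) U_s (1 + γ) / 2`. -/
def cutCoeff {A : Type} [Ring A] [StarRing A] [Algebra ℂ A] (π : C₀(X, ℂ) →⋆ₙₐ[ℂ] A)
    (U : Γ →* A) (c : C₀(X, ℂ)) (γ : A) (s : Γ) : A :=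
  π (c * act s c) * U s * ((2⁻¹ : ℂ) • (1 + γ))

/-- A cutoff function on `X` and an even equivariant Kasparov `(C₀(X), ℂ)`-cycle on `H`. -/
structure CycleOn (Γ X H : Type) [Group Γ] [TopologicalSpace X] [MulAction Γ X]
    [ContinuousConstSMul Γ X] [NormedAddCommGroup H] [InnerProductSpace ℂ H] [CompleteSpace H] :
    Type where
  c : C₀(X, ℂ)
  cutoff : IsCutoff Γ c
  π : C₀(X, ℂ) →⋆ₙₐ[ℂ] (H →L[ℂ] H)
  U : Γ →* (H →L[ℂ] H)
  γ : H →L[ℂ] H
  F : H →L[ℂ] H
  kasparov : IsKasparov {T : H →L[ℂ] H | IsCompactOperator T} π U γ F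

/-- Descent `(H ⊗ C*_r Γ, π ⋊ U, 1 ⊗ F)`, compression by the cutoff projection
`p_c = ∑_s λ_s ⊗ π (c · (s c)) U_s` with even and odd parts `p_c (1 ± γ) / 2`, and index. -/
def CycleOn.HasIndex {H : Type} [NormedAddCommGroup H] [InnerProductSpace ℂ H] [CompleteSpace H]
    (z : CycleOn Γ X H) (x : K0 (CStarRed Γ)) : Prop :=
  IsIndex (descend (cutCoeff z.π z.U z.c z.γ)) (descend (cutCoeff z.π z.U z.c (-z.γ))) z.F x

end Cycles

/-- A cycle for equivariant `K`-homology of degree `0` with `Γ`-compact supports: a proper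
`Γ`-compact locally compact Hausdorff `Γ`-space `X` with a cutoff function, and an even
equivariant Kasparov `(C₀(X), ℂ)`-cycle on a Hilbert space `H`. -/
structure KCycle (Γ : Type) [Group Γ] : Type 1 where
  X : Type
  [top : TopologicalSpace X]
  [t2 : T2Space X]
  [lc : LocallyCompactSpace X]
  [action : MulAction Γ X]
  [cont : ContinuousConstSMul Γ X]
  [proper : ProperlyDiscontinuousSMul Γ X]
  H : Type
  [normed : NormedAddCommGroup H]
  [hilbert : InnerProductSpace ℂ H]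
  [complete : CompleteSpace H]
  cyc : CycleOn Γ X H

/-- `x ∈ K₀(C*_r Γ)` is the image of the class of the cycle `z` under the assembly map. -/
def IsAssembly {Γ : Type} [Group Γ] (z : KCycle Γ) (x : K0 (CStarRed Γ)) : Prop :=
  @CycleOn.HasIndex Γ z.X _ z.top z.action z.cont z.H z.normed z.hilbert z.complete z.cyc x

end Vale.Agent.P089
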